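import Vale.Agent.P216.H269.KOfG
import Vale.Agent.P216.H799.Main3
import Vale.Agent.P216.H550.GenD3
import Vale.Agent.P216.H539.StMoore

/-!
# P216-T: the families of even degree of the free loops of `N`

`exists_even`: from `G2P` (the classes `om j` of the based loops are pulled back from the free
loops) and the walls: in every even degree a family of classes of the free loops which is not zero
on the based loops at all high levels.
-/

set_option linter.all false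

namespace Vale.Agent.P216.H126T.Even

open Set BoundedContinuousFunction
open Vale.Agent.P216.AS Vale.Agent.P216.PS Vale.Agent.P216.GM Vale.Agent.P216.B64
open Vale.Agent.P216.H901 (PM)
open Vale.Agent.P216.H754B (XP)
open Vale.Agent.P216.MV337 (FL FL_mono)
open Vale.Agent.P216.L250 (XE LM fn XE_mono)
open Vale.Agent.P216.Q633 (S3)
open Vale.Agent.P216.H269

variable {M : Type} [MetricSpace M] [CompactSpace M]

theorem umap_gFL {s : ℝ} (hs : 0 < s) : UMap (FL M s) (XL M s) (MR.gM s) := by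
  have h := H894.g_map (M := M) hs le_rfl
  rw [add_zero] at h
  have hX : XE M s ⊆ XL M s := by rw [XL_eq hs.le]
  exact h.mono le_rfl fun w hw => hX (h.mapsX hw)

/-- The restriction to the based loops. -/
noncomputable def rP (k : Type) [Field k] (x₀ : M) {t : ℝ} (ht : 0 < t) (q : ℕ) :
    HU k (FL M t) q →ₗ[k] HU k (P x₀ x₀ t) q := hres k (H799.P_subset_FL ht.le) q

theorem rP_res {k : Type} [Field k] {x₀ : M} {s t : ℝ} (hs : 0 < s) (ht : 0 < t) (h : s ≤ t)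
    (q : ℕ) (z : HU k (FL M t) q) :
    rP k x₀ hs q (hres k (FL_mono h) q z) = hres k (P_mono h) q (rP k x₀ ht q z) := by
  unfold rP
  exact (res_res _ _ z).trans (res_res _ _ z).symm

theorem rP_gM {k : Type} [Field k] {x₀ : M} {s : ℝ} (hs : 0 < s) (q : ℕ) (z : HU k (XL M s) q) :
    rP k x₀ hs q (hpull k (umap_gFL hs) q z) = hpull k (H269.umap_gM x₀ hs) q z := by
  unfold rP
  exact MV337.hres_hpull (umap_gFL hs) (H799.P_subset_FL hs.le) (H269.umap_gM x₀ hs) z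

/-- **The even families.** -/
theorem exists_even {x₀ : M} {B : ℝ} {k : Type} [Field k] (hB : 0 ≤ B) (O : OmegaOut M 2 x₀ B k)
    {f : C(M, S3)} {K : ℝ} (hK : 0 ≤ K) (hf : ∀ x y, dist (f x) (f y) ≤ K * dist x y)
    (G2 : G2P hK hf O) {a C : ℝ} (hC : 0 < C)
    (hst : ∃ W : ℕ → ℝ, H550.Wall W a ∧ W 0 = 0 ∧ ∀ n, (XP k M n).Step (W n) C) (j q : ℕ)
    (hq : q = j * 2) :
    ∃ (g : (XP k M q).Fam) (t₀ : ℝ), 0 < t₀ ∧ ∀ t (ht : 0 < t), t₀ ≤ t →
      rP k x₀ ht q (g.z t ht) ≠ 0 := by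
  subst hq
  obtain ⟨W, hW, -, hS⟩ := hst
  have hj : 0 ≤ (j : ℝ) * B := mul_nonneg (Nat.cast_nonneg _) hB
  have hs : 0 < (j : ℝ) * B + 1 := by linarith
  have ht : 0 < (j : ℝ) * B + 1 + 3 * C := by linarith
  have hst : (j : ℝ) * B + 1 ≤ (j : ℝ) * B + 1 + 3 * C := by linarith
  obtain ⟨-, y, hy⟩ := G2 j _ ht (by linarith) (H269.umap_gM x₀ ht)
  obtain ⟨g, hg⟩ := (hS (j * 2)).bfb (hW.nonneg _) hC _ _ hs hst le_rfl
    (hpull k (umap_gFL ht) (j * 2) (hpull k (Q633.umap_qm hK hf _) (j * 2) y))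
  have key : rP k x₀ hs (j * 2) (g.z _ hs) ≠ 0 := by
    have e : g.z _ hs = hres k (FL_mono hst) (j * 2) (hpull k (umap_gFL ht) (j * 2)
      (hpull k (Q633.umap_qm hK hf _) (j * 2) y)) := hg.symm
    rw [e, rP_res hs ht hst, rP_gM ht, hy, O.res_om j _ _ hst]
    exact H799.om_ne_of_le hB O j _ (by linarith)
  refine ⟨g, _, hs, fun t ht' h h0 => key ?_⟩
  have e : g.z _ hs = hres k (FL_mono h) (j * 2) (g.z t ht') := (g.comp _ t hs h).symm
  have e1 := rP_res (x₀ := x₀) hs ht' h (j * 2) (g.z t ht')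
  have e2 : hres k (P_mono h) (j * 2) (rP k x₀ ht' (j * 2) (g.z t ht')) = 0 :=
    (congrArg _ h0).trans (map_zero _)
  exact (congrArg (rP k x₀ hs (j * 2)) e).trans (e1.trans e2)

/-- **Non-vanishing in the even degrees.** -/
theorem ne_even {x₀ : M} {B : ℝ} {k : Type} [Field k] (hB : 0 ≤ B) (O : OmegaOut M 2 x₀ B k)
    {f : C(M, S3)} {K : ℝ} (hK : 0 ≤ K) (hf : ∀ x y, dist (f x) (f y) ≤ K * dist x y)
    (G2 : G2P hK hf O) {a C : ℝ} (hC : 0 < C)
    (hst : ∃ W : ℕ → ℝ, H550.Wall W a ∧ W 0 = 0 ∧ ∀ n, (XP k M n).Step (W n) C) (j : ℕ) :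
    ∃ (o : (XP k M (2 * j)).Fam) (t : ℝ) (ht : 0 < t), o.z t ht ≠ 0 := by
  obtain ⟨g, t₀, ht₀, h⟩ := exists_even hB O hK hf G2 hC hst j (2 * j) (mul_comm 2 j)
  exact ⟨g, t₀, ht₀, fun h0 => h t₀ ht₀ le_rfl ((congrArg (rP k x₀ ht₀ (2 * j)) h0).trans
    (map_zero _))⟩

end Vale.Agent.P216.H126T.Even
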