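import Mathlib.Geometry.Euclidean.Angle.Unoriented.TriangleInequality
import Mathlib.Analysis.InnerProductSpace.PiL2
import Mathlib.Analysis.SpecialFunctions.Trigonometric.Bounds
import Vale.Agent.P216.LS.Seg

/-!
# P216-T (C0): the unit sphere of `ℝ⁴` with the angular metric
-/

set_option linter.all false

open Set InnerProductGeometry
open scoped RealInnerProductSpace Real

namespace Vale.Agent.P216.H126T

/-- The unit sphere of `ℝ⁴`, with the angular metric. -/
@[ext] structure Ang : Type where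
  v : EuclideanSpace ℝ (Fin 4)
  h : ‖v‖ = 1

namespace Ang

theorem ne_zero (x : Ang) : x.v ≠ 0 := fun h => by
  have := x.h
  rw [h, norm_zero] at this
  exact zero_ne_one this

theorem eq_of_inner {x y : Ang} (h : ⟪x.v, y.v⟫ = 1) : x = y :=
  Ang.ext ((inner_eq_one_iff_of_norm_eq_one x.h y.h).1 h)

theorem inner_eq (x y : Ang) : ⟪x.v, y.v⟫ = Real.cos (angle x.v y.v) :=
  inner_eq_cos_angle_of_norm_eq_one x.h y.h

theorem inner_self (x : Ang) : ⟪x.v, x.v⟫ = 1 := by
  rw [real_inner_self_eq_norm_sq, x.h, one_pow]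

noncomputable instance : MetricSpace Ang where
  dist x y := angle x.v y.v
  dist_self x := angle_self x.ne_zero
  dist_comm x y := angle_comm _ _
  dist_triangle x y z := angle_le_angle_add_angle _ _ _
  eq_of_dist_eq_zero {x y} h := by
    refine eq_of_inner ?_
    rw [inner_eq, show angle x.v y.v = 0 from h, Real.cos_zero]

theorem dist_eq (x y : Ang) : dist x y = angle x.v y.v := rfl

theorem inner_dist (x y : Ang) : ⟪x.v, y.v⟫ = Real.cos (dist x y) := inner_eq x y

theorem dist_of_inner {x y : Ang} {a : ℝ} (h0 : 0 ≤ a) (hπ : a ≤ π)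
    (h : ⟪x.v, y.v⟫ = Real.cos a) : dist x y = a := by
  rw [dist_eq, InnerProductGeometry.angle, x.h, y.h, mul_one, div_one, h, Real.arccos_cos h0 hπ]

theorem norm_sub_le (x y : Ang) : ‖x.v - y.v‖ ≤ dist x y := by
  have h1 : ‖x.v - y.v‖ ^ 2 = 2 - 2 * Real.cos (dist x y) := by
    rw [norm_sub_sq_real, x.h, y.h, inner_dist]
    ring
  have h2 := Real.one_sub_sq_div_two_le_cos (x := dist x y)
  exact (pow_le_pow_iff_left₀ (norm_nonneg _) dist_nonneg two_ne_zero).1 (by rw [h1]; linarith)

/-- The identity, from the angular to the chordal metric. -/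
noncomputable def homeo : Ang ≃ₜ Metric.sphere (0 : EuclideanSpace ℝ (Fin 4)) 1 where
  toFun x := ⟨x.v, by rw [mem_sphere_zero_iff_norm]; exact x.h⟩
  invFun y := ⟨y.1, mem_sphere_zero_iff_norm.1 y.2⟩
  left_inv x := rfl
  right_inv y := rfl
  continuous_toFun := by
    refine LipschitzWith.continuous (K := 1) (LipschitzWith.of_dist_le_mul fun x y => ?_)
    rw [NNReal.coe_one, one_mul, Subtype.dist_eq, _root_.dist_eq_norm]
    exact norm_sub_le x y
  continuous_invFun := by
    rw [continuous_iff_continuousAt]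
    intro y
    have hy : (y : EuclideanSpace ℝ (Fin 4)) ≠ 0 := fun h => by
      have := mem_sphere_zero_iff_norm.1 y.2
      rw [h, norm_zero] at this
      exact zero_ne_one this
    rw [ContinuousAt, tendsto_iff_dist_tendsto_zero]
    have h1 : ContinuousAt (fun p : EuclideanSpace ℝ (Fin 4) × EuclideanSpace ℝ (Fin 4) =>
        angle p.1 p.2) ((y : EuclideanSpace ℝ (Fin 4)), (y : EuclideanSpace ℝ (Fin 4))) :=
      continuousAt_angle hy hy
    have h2 : Filter.Tendsto (fun z : Metric.sphere (0 : EuclideanSpace ℝ (Fin 4)) 1 =>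
        ((z : EuclideanSpace ℝ (Fin 4)), (y : EuclideanSpace ℝ (Fin 4)))) (nhds y)
        (nhds ((y : EuclideanSpace ℝ (Fin 4)), (y : EuclideanSpace ℝ (Fin 4)))) :=
      (continuous_subtype_val.prodMk continuous_const).continuousAt
    have h3 := h1.tendsto.comp h2
    rw [angle_self hy] at h3
    exact h3

instance : CompactSpace Ang := homeo.symm.compactSpace

theorem nonempty_homeo : Nonempty (Ang ≃ₜ Metric.sphere (0 : EuclideanSpace ℝ (Fin 4)) 1) := ⟨homeo⟩

/-- Interpolation points. -/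
theorem uniqSeg : LS.UniqSeg Ang 1 := by
  intro x y hxy t ht
  obtain ⟨θ, hθ⟩ : ∃ θ, θ = dist x y := ⟨_, rfl⟩
  have h0 : 0 ≤ θ := by rw [hθ]; exact dist_nonneg
  have hπ : θ < π := by
    rw [hθ]
    exact hxy.trans (by linarith [Real.two_le_pi])
  rw [← hθ]
  have hb0 : 0 ≤ t * θ := mul_nonneg ht.1 h0
  have ha0 : 0 ≤ (1 - t) * θ := mul_nonneg (by linarith [ht.2]) h0
  have hab : (1 - t) * θ + t * θ = θ := by ring
  have hbπ : t * θ ≤ π := by linarith
  have haπ : (1 - t) * θ ≤ π := by linarith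
  rcases h0.eq_or_lt with h | h
  · have hxy' : x = y := dist_eq_zero.1 (by rw [← hθ, ← h])
    refine ⟨x, ⟨by rw [dist_self, ← h, mul_zero], by rw [← hxy', dist_self, ← h, mul_zero]⟩, ?_⟩
    rintro z ⟨h1, -⟩
    rw [← h, mul_zero] at h1
    exact (dist_eq_zero.1 h1).symm
  · have hs : 0 < Real.sin θ := Real.sin_pos_of_pos_of_lt_pi h hπ
    obtain ⟨a, ha⟩ : ∃ a, a = (1 - t) * θ := ⟨_, rfl⟩
    obtain ⟨b, hb⟩ : ∃ b, b = t * θ := ⟨_, rfl⟩
    rw [← ha] at ha0 haπ hab ⊢
    rw [← hb] at hb0 hbπ hab ⊢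
    have hxyi : ⟪x.v, y.v⟫ = Real.cos θ := by rw [hθ]; exact inner_dist x y
    have hyxi : ⟪y.v, x.v⟫ = Real.cos θ := by rw [real_inner_comm]; exact hxyi
    have hsab : Real.sin θ = Real.sin a * Real.cos b + Real.cos a * Real.sin b := by
      rw [← hab, Real.sin_add]
    have hcab : Real.cos θ = Real.cos a * Real.cos b - Real.sin a * Real.sin b := by
      rw [← hab, Real.cos_add]
    have hqa := Real.sin_sq_add_cos_sq a
    have hqb := Real.sin_sq_add_cos_sq b
    set z₀ : EuclideanSpace ℝ (Fin 4) :=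
      (Real.sin a / Real.sin θ) • x.v + (Real.sin b / Real.sin θ) • y.v with hz₀
    have hxz : ⟪x.v, z₀⟫ = Real.cos b := by
      rw [hz₀, inner_add_right, inner_smul_right, inner_smul_right, inner_self, hxyi]
      field_simp
      rw [hcab, hsab]
      linear_combination (-Real.sin a) * hqb
    have hyz : ⟪y.v, z₀⟫ = Real.cos a := by
      rw [hz₀, inner_add_right, inner_smul_right, inner_smul_right, inner_self, hyxi]
      field_simp
      rw [hcab, hsab]
      linear_combination (-Real.sin b) * hqa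
    have hn : ‖z₀‖ = 1 := by
      have h1 : ⟪z₀, z₀⟫ = 1 := by
        nth_rewrite 1 [hz₀]
        rw [inner_add_left, real_inner_smul_left, real_inner_smul_left, hxz, hyz]
        field_simp
        rw [hsab]
        ring
      rw [real_inner_self_eq_norm_sq] at h1
      nlinarith [norm_nonneg z₀]
    refine ⟨⟨z₀, hn⟩, ⟨dist_of_inner hb0 hbπ hxz, ?_⟩, ?_⟩
    · rw [dist_comm]
      exact dist_of_inner ha0 haπ hyz
    · rintro z ⟨h1, h2⟩
      refine (eq_of_inner (x := ⟨z₀, hn⟩) (y := z) ?_).symm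
      have e1 : ⟪x.v, z.v⟫ = Real.cos b := by rw [← h1]; exact inner_dist x z
      have e2 : ⟪y.v, z.v⟫ = Real.cos a := by
        rw [← h2, real_inner_comm]; exact inner_dist z y
      change ⟪z₀, z.v⟫ = 1
      rw [hz₀, inner_add_left, real_inner_smul_left, real_inner_smul_left, e1, e2]
      field_simp
      rw [hsab]
      ring

end Ang

end Vale.Agent.P216.H126T
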