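import Vale.Agent.P216.Ch2.D246.Dim
import Vale.Agent.P216.H977C.OmD
import Vale.Agent.P216.H934D.Bridge
import Vale.Agent.P216.H215.Comm

/-!
# P216-T (a): Thom classes of closed simply connected manifolds over every field
-/

set_option linter.all false

open Set

namespace Vale.Agent.P216.H126T

open Vale.Agent.P216.Sl Vale.Agent.P216.PS Vale.Agent.P216.H977C

variable {E : Type} [NormedAddCommGroup E] [NormedSpace ℝ E] [FiniteDimensional ℝ E]
  {N : Type} [MetricSpace N] [CompactSpace N] [ChartedSpace E N] [SimplyConnectedSpace N]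

include E

/-- **(A1)** Thom classes over every field. -/
theorem thomK_all (hn : 1 ≤ Module.finrank ℝ E) :
    ThomK (fun _ _ => True) N (Module.finrank ℝ E) := by
  intro k _ _ ρ₁ hρ₁
  obtain ⟨w, -, hw, hw0⟩ := Ch2.D246.exists_not_exL_mfd (M := N) (k := k) (E := E) (Ch2.ok k) rfl hn
  obtain ⟨τ, hτ⟩ := Ch2.D246.exists_tau_mfd (E := E) (Ch2.ok k) rfl hn hw hw0 hρ₁
  refine ⟨τ, fun y hy => hw0 ?_⟩
  refine H934D.exL_congr (H934D.exL_add hy (H934D.exL_smul (-1) (hτ y))) fun l _ => ?_
  ring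

end Vale.Agent.P216.H126T
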