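import Vale.Agent.P216.H126T.H1
import Vale.Agent.P216.H126T.ThomAll
import Vale.Agent.P216.H215.SCGlue
import Vale.Agent.P216.H934D.BaseK

/-!
# P216-T (a): the cohomology of a closed simply connected three-manifold over every field
-/

set_option linter.all false

open Set Finsupp

namespace Vale.Agent.P216.H126T

open Vale.Agent.P216.Sl Vale.Agent.P216.PS Vale.Agent.P216.LS
open Vale.Agent.P216.H133C (pw)
open Vale.Agent.P216.N929 (Fine Coc Cy Tau dl_congr bd_eq_zero ex_iff not_ex_iff)

/-- Normalised representatives. -/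
theorem exists_nrm {k : Type} [Field k] {N : Type} [MetricSpace N] {q : ℕ} {u : List N → k}
    (hu : CocL (univ : Set N) q u) : ∃ v : List N → k, Nrm v ∧ CocL (univ : Set N) q v ∧
      ExL (univ : Set N) q fun l => v l - u l := by
  obtain ⟨v, hv, hN, h⟩ := exists_cls (cls (fun e : Empty => e.elim) (fun e : Empty => e.elim) u hu)
  exact ⟨v, hN, hv, cls_eq_cls.1 h⟩

/-- **(A2)** `H^2 = 0`. -/
theorem exL_codim_one {E : Type} [NormedAddCommGroup E] [NormedSpace ℝ E] [FiniteDimensional ℝ E]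
    {N : Type} [MetricSpace N] [CompactSpace N] [ChartedSpace E N] [SimplyConnectedSpace N]
    {ρ : ℝ} (hρ : 0 < ρ) (hU : UniqSeg N ρ) {n : ℕ} (hn : Module.finrank ℝ E = n + 1) (h1 : 1 ≤ n)
    {k : Type} [Field k] {u : List N → k} (hu : CocL (univ : Set N) n u) :
    ExL (univ : Set N) n u := by
  obtain ⟨w, -, hw, hw0⟩ := Ch2.D246.exists_not_exL_mfd (M := N) (k := k) (E := E) (Ch2.ok k) hn
    (by omega)
  obtain ⟨v, hN, hv, h⟩ := exists_nrm hu
  have hpt : Nonempty N := inferInstance
  obtain ⟨y⟩ := hpt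
  have h2 : ExL (univ : Set N) n v := pd h1 le_rfl hw0 (fun ρ₁ hρ₁ => by
      obtain ⟨τ, hτ⟩ := Ch2.D246.exists_tau_mfd (E := E) (Ch2.ok k) hn (by omega) hw hw0 hρ₁
      exact ⟨τ, y, hτ y⟩)
    (by
      rw [show n + 1 - n = 1 by omega]
      exact bound_one hρ hU fun f hf => H215.exL_one E hf) hN hv
  refine H934D.exL_congr (H934D.exL_add h2 (H934D.exL_smul (-1) h)) fun l _ => ?_
  ring

/-- Cocycles of degree zero are constant. -/
theorem exists_const {k : Type} [Field k] {N : Type} [MetricSpace N] [PreconnectedSpace N]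
    [Nonempty N] {c : List N → k} (hc : CocL (univ : Set N) 0 c) :
    ∃ a : k, ∀ x, c [x] = a := by
  obtain ⟨ε, hε, hc⟩ := hc
  have hlc : IsLocallyConstant fun x : N => c [x] := by
    rw [IsLocallyConstant.iff_eventually_eq]
    intro x
    filter_upwards [Metric.ball_mem_nhds x hε] with y hy
    have h1 := hc [y, x] rfl (fine_pair hε hy)
    rw [dl_pair] at h1
    linear_combination -h1
  obtain ⟨x₀⟩ := ‹Nonempty N›
  exact ⟨c [x₀], fun x => hlc.apply_eq_of_preconnectedSpace x x₀⟩

/-- **(A2)** for three-manifolds. -/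
theorem baseK3 {E : Type} [NormedAddCommGroup E] [NormedSpace ℝ E]
    [FiniteDimensional ℝ E] {N : Type} [MetricSpace N] [CompactSpace N] [ChartedSpace E N]
    [SimplyConnectedSpace N] {ρ : ℝ} (hρ : 0 < ρ) (hU : UniqSeg N ρ)
    (h3 : Module.finrank ℝ E = 3) (k : Type) [Field k] : Nonempty (H934D.BaseK k N 3 1) := by
  obtain ⟨w, hN, hw, hw0⟩ := Ch2.D246.exists_not_exL_mfd (M := N) (k := k) (E := E) (Ch2.ok k) h3
    (by omega)
  have hw' := hw
  obtain ⟨ε, hε, hcw⟩ := hw'
  have hpw : ∀ l : List N, l.length = 3 + 1 → pw w 3 1 l = w l := by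
    intro l hl
    show w (l.take (3 + 1)) * (if (l.drop 3).length = 1 then 1 else 0) = w l
    rw [List.take_of_length_le (by omega), if_pos (by rw [List.length_drop]; omega), mul_one]
  refine ⟨{
    ξ := w
    ε := ε
    hε := hε
    nξ := hN
    cξ := fun l hl hs => hcw l hl hs
    ne := ?_
    line := ?_
    zero := ?_ }⟩
  · intro j hj he
    rcases (by omega : j = 0 ∨ j = 1) with rfl | rfl
    · obtain ⟨g, hg, δ, hδ, h⟩ := he
      obtain ⟨x⟩ : Nonempty N := inferInstance
      have h1 := h [x] rfl ⟨fun _ _ => mem_univ _, fun a ha b hb => by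
        simp only [List.mem_cons, List.not_mem_nil, or_false] at ha hb
        subst ha; subst hb
        rwa [dist_self]⟩
      rw [N929.dl_cons, N929.dl_nil, hg rfl] at h1
      simp [pw] at h1
    · exact hw0 (H934D.exL_congr he fun l hl => (hpw l hl).symm)
  · intro j hj c hc
    rcases (by omega : j = 0 ∨ j = 1) with rfl | rfl
    · obtain ⟨a, ha⟩ := exists_const hc
      refine ⟨a, fun _ => 0, fun _ _ => rfl, 1, one_pos, fun l hl _ => ?_⟩
      rw [PS.dl_zero_fun]
      obtain ⟨x, rfl⟩ := List.length_eq_one_iff.1 (by simpa using hl)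
      simp [pw, ha x]
    · obtain ⟨a, ha⟩ := Ch2.D246.exL_mul_mfd (E := E) (Ch2.ok k) h3 (by omega) hw hw0 hc
      exact ⟨a, H934D.exL_congr ha fun l hl => by rw [hpw l hl]⟩
  · intro q hq c hc
    have h0 := hq 0 (by omega)
    have h1 := hq 1 (by omega)
    rcases (by omega : q = 1 ∨ q = 2 ∨ 3 < q) with rfl | rfl | h
    · exact H215.exL_one E hc
    · exact exL_codim_one (E := E) hρ hU h3 (by omega) hc
    · exact Ch2.D246.exL_above_mfd (E := E) (Ch2.ok k) h3 (by omega) h hc

end Vale.Agent.P216.H126T
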