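import Vale.Agent.P216.N929.Om2

/-!
# P216-T (a): cap products and prisms of list chains
-/

set_option linter.all false

open Set Finsupp

namespace Vale.Agent.P216.H126T

open Vale.Agent.P216.Sl Vale.Agent.P216.PS
open Vale.Agent.P216.N929 (Fine Coc Cy Tau dl_congr bd_eq_zero)

variable {k : Type} [Field k] {α β : Type}

theorem eq_zero_of_ev {c : Ch k α} (h : ∀ g : List α → k, ev g c = 0) : c = 0 := by
  classical
  ext l
  have h1 := h fun l' => if l' = l then 1 else 0
  rw [ev, Finsupp.linearCombination_apply, Finsupp.sum] at h1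
  simp only [smul_eq_mul, mul_ite, mul_one, mul_zero] at h1
  rw [Finset.sum_ite_eq'] at h1
  rw [Finsupp.zero_apply]
  by_contra h0
  rw [if_pos (Finsupp.mem_support_iff.2 h0)] at h1
  exact h0 h1

/-- The cap product with a cochain of degree `q` on the front face. -/
noncomputable def cap (q : ℕ) (u : List α → k) : Ch k α →ₗ[k] Ch k α :=
  Finsupp.linearCombination k fun s => single (s.drop q) (u (s.take (q + 1)))

theorem cap_single (q : ℕ) (u : List α → k) (s : List α) :
    cap q u (single s 1) = single (s.drop q) (u (s.take (q + 1))) := by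
  simp [cap, Finsupp.linearCombination_single]

theorem ev_cap (q : ℕ) (u g : List α → k) (c : Ch k α) :
    ev g (cap q u c) = ev (N929.cup q u g) c := by
  have := lin_ext_apply (f := (ev g).comp (cap q u)) (g := ev (N929.cup q u g)) (fun s => by
    rw [LinearMap.comp_apply, cap_single, ev_single, ev_single, one_mul]; rfl) c
  simpa using this

/-- The cap product of a fine cycle with a cocycle is a cycle. -/
theorem bd_cap {q n : ℕ} (hqn : q + 1 ≤ n) {u : List α → k} {P : List α → Prop}
    (hP : ∀ l, P l → l.length = n + 1) (hu : ∀ l, P l → dl u (l.take (q + 2)) = 0)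
    {z : Ch k α} (hz : z ∈ Sp k P) (hb : bd z = 0) : bd (cap q u z) = 0 := by
  refine eq_zero_of_ev fun g => ?_
  rw [← ev_dl, ev_cap]
  have h1 : ev (N929.cup q u (dl g)) z = ev (fun l => (-1 : k) ^ q * dl (N929.cup q u g) l) z := by
    refine ev_congr (P := P) (fun l hl => ?_) hz
    have h2 := N929.dl_cup q u g l (by rw [hP l hl]; omega)
    rw [h2, hu l hl, zero_mul, zero_add, ← mul_assoc, ← mul_pow]
    simp [N929.cup]
  rw [h1, ev_smul_fun, ev_dl, hb, map_zero, mul_zero]

/-! ### Prisms -/

/-- The vertex map of the prism. -/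
def phi (p : (α × α) × Bool) : α := if p.2 then p.1.2 else p.1.1

/-- The prism of a chain of lists of pairs. -/
noncomputable def prc : Ch k (α × α) →ₗ[k] Ch k α :=
  (mp phi).comp ((sh (k := k) (α := α × α) (β := Bool)).flip (single [false, true] 1))

/-- The prism operator on cochains. -/
noncomputable def pru (u : List α → k) (l : List (α × α)) : k := ev u (prc (single l (1 : k)))

theorem ev_pru (u : List α → k) (c : Ch k (α × α)) : ev (pru u) c = ev u (prc c) := by
  have := lin_ext_apply (f := ev (pru u)) (g := (ev u).comp prc) (fun s => by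
    rw [LinearMap.comp_apply, ev_single, one_mul]; rfl) c
  simpa using this

theorem prc_mem (l : List (α × α)) : prc (single l (1 : k)) ∈
    Sp k fun l' => l'.length = l.length + 1 ∧ ∀ x ∈ l', ∃ p ∈ l, x = p.1 ∨ x = p.2 := by
  rw [prc, LinearMap.comp_apply, LinearMap.flip_apply, sh_single]
  refine map_mem _ (fun l' hl' => ?_) (Sh_mem (k := k) _ l [false, true] rfl)
  rw [mp_single]
  refine single_mem ⟨?_, fun x hx => ?_⟩ _
  · have h := hl'.1
    simp only [List.length_cons, List.length_nil] at h
    rw [List.length_map]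
    omega
  · obtain ⟨p, hp, rfl⟩ := List.mem_map.1 hx
    refine ⟨p.1, (hl'.2 p hp).1, ?_⟩
    unfold phi
    split_ifs
    · exact Or.inr rfl
    · exact Or.inl rfl

/-- The boundary of the prism. -/
theorem bd_prc {l : List (α × α)} (hl : l ≠ []) : bd (prc (single l (1 : k))) =
    prc (bdL l) + (-1 : k) ^ (l.length + 1) •
      (single (l.map Prod.snd) 1 - single (l.map Prod.fst) 1) := by
  obtain ⟨m, hm⟩ : ∃ m, l.length = m + 1 :=
    Nat.exists_eq_succ_of_ne_zero fun h => hl (List.length_eq_zero_iff.1 h)
  have h1 : prc (single l (1 : k)) = mp phi (Sh l [false, true]) := by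
    rw [prc, LinearMap.comp_apply, LinearMap.flip_apply, sh_single]
  have h2 : (bdL [false, true] : Ch k Bool) = single [true] 1 - single [false] 1 := by
    rw [bdL_cons, bdL_cons, bdL_nil, map_zero, sub_zero, cons_single]
  rw [h1, bd_mp, bd_Sh m l [false, true] (by simp [hm]), h2, map_add, map_smul, map_sub, sh_single,
    sh_single, Sh_point_right true hl, Sh_point_right false hl, map_sub, mp_single, mp_single,
    List.map_map, List.map_map]
  rfl

/-- The prism operator is a homotopy from the first to the second coordinate. -/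
theorem dl_pru {u : List α → k} {l : List (α × α)} (hl : l ≠ [])
    (hu : ∀ l' : List α, l'.length = l.length + 1 → (∀ x ∈ l', ∃ p ∈ l, x = p.1 ∨ x = p.2) →
      dl u l' = 0) :
    dl (pru u) l = (-1 : k) ^ l.length * (u (l.map Prod.snd) - u (l.map Prod.fst)) := by
  have h1 : ev u (bd (prc (single l (1 : k)))) = 0 := by
    rw [← ev_dl]
    exact ev_zero_of (fun l' hl' => hu l' hl'.1 hl'.2) (prc_mem l)
  rw [bd_prc hl, map_add, map_smul, map_sub, ev_single, ev_single, one_mul, one_mul, ← ev_pru] at h1
  have h2 : dl (pru u) l = ev (pru u) (bdL l) := rfl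
  rw [h2]
  rw [smul_eq_mul, pow_succ] at h1
  linear_combination h1

end Vale.Agent.P216.H126T
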