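import Vale.Agent.P216.H126T.PD
import Vale.Agent.P216.LS.Seg

/-!
# P216-T (a): fine one-cycles bound fine chains if `H^1 = 0`
-/

set_option linter.all false

open Set Finsupp

namespace Vale.Agent.P216.H126T

open Vale.Agent.P216.Sl Vale.Agent.P216.PS Vale.Agent.P216.LS
open Vale.Agent.P216.N929 (Fine Coc Cy Tau dl_congr bd_eq_zero ex_iff not_ex_iff)

variable {k : Type} [Field k] {N : Type} [MetricSpace N]

omit [MetricSpace N] in
theorem dl_pair (f : List N → k) (x y : N) : dl f [x, y] = f [y] - f [x] + f [] - f [] := by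
  rw [N929.dl_cons, N929.dl_cons, N929.dl_nil]
  ring

omit [MetricSpace N] in
theorem dl_triple (f : List N → k) (x y z : N) :
    dl f [x, y, z] = f [y, z] - f [x, z] + f [x, y] := by
  rw [N929.dl_cons, N929.dl_cons, N929.dl_cons, N929.dl_nil]
  ring

theorem fine_pair {ε : ℝ} (hε : 0 < ε) {x y : N} (h : dist x y < ε) : Fine univ ε [x, y] :=
  ⟨fun _ _ => mem_univ _, fun a ha b hb => by
    simp only [List.mem_cons, List.not_mem_nil, or_false] at ha hb
    rcases ha with rfl | rfl <;> rcases hb with rfl | rfl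
    · rwa [dist_self]
    · exact h
    · rwa [dist_comm]
    · rwa [dist_self]⟩

theorem fine_triple {ε : ℝ} (hε : 0 < ε) {x y z : N} (h1 : dist x y < ε) (h2 : dist x z < ε)
    (h3 : dist y z < ε) : Fine univ ε [x, y, z] :=
  ⟨fun _ _ => mem_univ _, fun a ha b hb => by
    simp only [List.mem_cons, List.not_mem_nil, or_false] at ha hb
    rcases ha with rfl | rfl | rfl <;> rcases hb with rfl | rfl | rfl <;>
      first
        | (rw [dist_self]; exact hε)
        | assumption
        | (rw [dist_comm]; assumption)⟩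

/-- A cocycle of degree one which is exact is exact at a scale which depends only on the scale of
the cocycle. -/
theorem uniform_one {ρ ε δ : ℝ} (hU : UniqSeg N ρ) (hε : 0 < ε) (hδε : δ ≤ ε) (hδρ : δ ≤ ρ)
    {f g : List N → k} (hf : Coc univ ε 1 f) {ε' : ℝ} (hε' : 0 < ε')
    (hg : ∀ l : List N, l.length = 2 → SmL univ ε' l → f l = dl g l) {x y : N}
    (hxy : dist x y < δ) : f [x, y] = dl g [x, y] := by
  have hd0 : 0 ≤ dist x y := dist_nonneg
  obtain ⟨m, hm⟩ := exists_nat_gt (dist x y / ε')
  have hm0 : (0 : ℝ) < m := (div_nonneg hd0 hε'.le).trans_lt hm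
  have hm' : dist x y / m < ε' := by
    rw [div_lt_iff₀ hm0]
    rw [div_lt_iff₀ hε'] at hm
    linarith
  have hρ : dist x y < ρ := hxy.trans_le hδρ
  have key : ∀ i : ℕ, i ≤ m → f [x, seg x y (i / m)] = dl g [x, seg x y (i / m)] := by
    intro i
    induction i with
    | zero =>
      intro _
      rw [Nat.cast_zero, zero_div, seg_zero]
      have h1 := hf [x, x, x] rfl (fine_triple hε (by rwa [dist_self]) (by rwa [dist_self])
        (by rwa [dist_self]))
      rw [dl_triple] at h1
      rw [dl_pair]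
      linear_combination h1
    | succ i ih =>
      intro hi
      have hi' : ((i : ℝ) + 1) ≤ m := by exact_mod_cast hi
      have hI : (i : ℝ) / m ∈ Icc (0 : ℝ) 1 :=
        ⟨by positivity, (div_le_one hm0).2 (by linarith)⟩
      have hI1 : ((i + 1 : ℕ) : ℝ) / m ∈ Icc (0 : ℝ) 1 :=
        ⟨by positivity, (div_le_one hm0).2 (by push_cast; linarith)⟩
      have hle : (i : ℝ) / m ≤ ((i + 1 : ℕ) : ℝ) / m := by
        gcongr
        simp
      have d1 := dist_left_seg hU hρ hI
      have d2 := dist_left_seg hU hρ hI1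
      have d3 := dist_seg_seg_le hU hρ hI.1 hle hI1.2
      have hstep : ((i + 1 : ℕ) : ℝ) / m - (i : ℝ) / m = 1 / m := by
        push_cast
        ring
      rw [hstep] at d3
      have e1 : dist x (seg x y (i / m)) < ε := by
        rw [d1]
        exact ((mul_le_of_le_one_left hd0 hI.2).trans_lt hxy).trans_le hδε
      have e2 : dist x (seg x y ((i + 1 : ℕ) / m)) < ε := by
        rw [d2]
        exact ((mul_le_of_le_one_left hd0 hI1.2).trans_lt hxy).trans_le hδε
      have e3 : dist (seg x y (i / m)) (seg x y ((i + 1 : ℕ) / m)) < ε' := by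
        rw [d3, one_div, inv_mul_eq_div]
        exact hm'
      have e4 : dist (seg x y (i / m)) (seg x y ((i + 1 : ℕ) / m)) < ε := by
        rw [d3]
        refine lt_of_le_of_lt (mul_le_of_le_one_left hd0 ?_) (hxy.trans_le hδε)
        rw [div_le_one hm0]
        have : (1 : ℝ) ≤ (i : ℝ) + 1 := by
          have : (0 : ℝ) ≤ i := Nat.cast_nonneg i
          linarith
        linarith
      have h1 := hf [x, seg x y (i / m), seg x y ((i + 1 : ℕ) / m)] rfl (fine_triple hε e1 e2 e4)
      have h2 := hg [seg x y (i / m), seg x y ((i + 1 : ℕ) / m)] rfl (fine_pair hε' e3)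
      have h3 := ih (by omega)
      rw [dl_triple] at h1
      rw [dl_pair] at h2 h3 ⊢
      linear_combination -h1 + h2 + h3
  have h := key m le_rfl
  rwa [div_self hm0.ne', seg_one] at h

/-- **Fine one-cycles bound fine chains.** -/
theorem bound_one {ρ : ℝ} (hρ : 0 < ρ) (hU : UniqSeg N ρ)
    (H1 : ∀ f : List N → k, CocL (univ : Set N) 1 f → ExL (univ : Set N) 1 f) :
    ∀ ε > 0, ∃ δ > 0, ∀ a : Ch k N, Cy univ δ 1 a →
      ∃ b ∈ Sp k (fun l : List N => l.length = 3 ∧ Fine univ ε l), bd b = a := by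
  intro ε hε
  refine ⟨min ε ρ, lt_min hε hρ, fun a ha => ?_⟩
  by_contra hcon
  push Not at hcon
  have hnot : a ∉ (Sp k (fun l : List N => l.length = 3 ∧ Fine univ ε l)).map bd := by
    rintro ⟨b, hb, hba⟩
    exact hcon b hb hba
  obtain ⟨φ, hφ, hφ'⟩ := Submodule.exists_dual_map_eq_bot_of_notMem hnot inferInstance
  have hev : ev (fun l : List N => φ (single l 1)) = φ :=
    lin_ext fun l => by rw [ev_single, one_mul]
  have hker : ∀ b ∈ Sp k (fun l : List N => l.length = 3 ∧ Fine univ ε l), φ (bd b) = 0 := by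
    intro b hb
    have h1 : φ (bd b) ∈ ((Sp k (fun l : List N => l.length = 3 ∧ Fine univ ε l)).map bd).map φ :=
      ⟨bd b, ⟨b, hb, rfl⟩, rfl⟩
    rw [hφ'] at h1
    exact (Submodule.mem_bot k).1 h1
  have hf : Coc univ ε 1 (fun l : List N => φ (single l 1)) := by
    intro l hl hs
    rw [dl, hev]
    have h1 := hker (single l 1) (single_mem ⟨hl, hs⟩ _)
    rwa [bd_single, one_smul] at h1
  obtain ⟨g, -, ε', hε', hg⟩ := H1 _ ⟨ε, hε, fun l hl hs => hf l hl hs⟩
  refine hφ ?_
  have hba : bd a = 0 := bd_eq_zero ha one_ne_zero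
  rw [← hev, ev_congr (P := fun l : List N => l.length = 2 ∧ Fine univ (min ε ρ) l) (g := dl g)
    (fun l hl => ?_) ha.1, ev_dl, hba, map_zero]
  obtain ⟨x, y, rfl⟩ := List.length_eq_two.1 hl.1
  exact uniform_one hU hε (min_le_left _ _) (min_le_right _ _) hf hε' hg
    (hl.2.2 x (by simp) y (by simp))

end Vale.Agent.P216.H126T
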