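import Vale.Agent.P216.H550.GenD3
import Vale.Agent.P216.H799.XOut2

/-!
# P216-T, row X: the contract `XOut2` from the walls and the stable classes

`exists_pm2`: one generator in every degree except `1`, with bounded bars and births, if all the
modules `Y n` are step modules with walls `T n` of bounded steps, all families of one degree are
dependent, all families of degree `1` vanish and every other degree has a non-zero family.
`exists_xOut`: the contract `H828C.XOut2 M B k`, the constant depends only on the walls.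
-/

set_option linter.all false

namespace Vale.Agent.P216.H126T.X

open Set BoundedContinuousFunction
open Vale.Agent.P216.AS Vale.Agent.P216.H901 Vale.Agent.P216.PS Vale.Agent.P216.MV337
open Vale.Agent.P216.B64 Vale.Agent.P216.H754B Vale.Agent.P216.H550

/-- **The stable classes** in the case of the 3-sphere: one class in every degree except `1`. -/
structure StabO {k : Type} [Field k] (Y : ℕ → PM k) : Prop where
  line : ∀ n (o o' : (Y n).Fam), ∃ a b : k, (a ≠ 0 ∨ b ≠ 0) ∧
    ∀ t (ht : 0 < t), a • o.z t ht + b • o'.z t ht = 0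
  one : ∀ (o : (Y 1).Fam) t (ht : 0 < t), o.z t ht = 0
  ne : ∀ n, n ≠ 1 → ∃ (o : (Y n).Fam) (t : ℝ) (ht : 0 < t), o.z t ht ≠ 0

/-- the constant -/
noncomputable def KX (a C : ℝ) : ℝ := 3 * C + 3 * a

theorem exists_pm2 {k : Type} [Field k] {Y : ℕ → PM k} (S : StabO Y) {T : ℕ → ℝ} {a C : ℝ}
    (W : Wall T a) (hT0 : T 0 = 0) (hC : 0 < C) (h : ∀ n, (Y n).Step (T n) C) :
    Nonempty (H799.PM2 2 Y (KX a C)) := by
  have ha := W.a0
  choose g hg using fun n => exists_base (S.line n)
  have hne : ∀ n, n ≠ 1 → ∃ (t : ℝ) (ht : 0 < t), (g n).z t ht ≠ 0 := by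
    intro n hn
    obtain ⟨o, t, ht, h1⟩ := S.ne n hn
    obtain ⟨c, hc⟩ := hg _ o
    refine ⟨t, ht, fun h2 => h1 ?_⟩
    rw [hc, h2, smul_zero]
  -- non-vanishing above the wall
  have up : ∀ n, n ≠ 1 → ∀ t (ht : 0 < t), T n + C ≤ t → (g n).z t ht ≠ 0 := by
    intro n hn t ht hT h1
    obtain ⟨r, hr, h3⟩ := hne n hn
    exact h3 ((h n).fam_zero hC.le _ ht hT h1 r hr)
  -- births
  have birth : ∀ n r : ℕ, r ≤ 2 → n + r ≠ 1 → ∀ s t (hs : 0 < s) (ht : 0 < t),
      s + KX a C ≤ t → (g n).z s hs ≠ 0 → (g (n + r)).z t ht ≠ 0 := by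
    intro n r hr hn s t hs ht hst h1
    have h5 : T n < s + C := by
      by_contra h6
      exact h1 ((h n).fam_low hC.le _ hs (by linarith))
    have h4 := W.le n r
    have h7 : a * (r : ℝ) ≤ a * 2 := mul_le_mul_of_nonneg_left (by exact_mod_cast hr) ha
    refine up _ hn t ht ?_
    unfold KX at hst
    linarith
  refine ⟨{ g := g, line := ?_, g_zero := ?_, birth_x0 := ?_, birth_x := ?_, birth_y0 := ?_,
            birth_y := ?_ }⟩
  · intro n s t hs hst hB' x
    obtain ⟨o, ho⟩ := (h n).bfb (W.nonneg n) hC s t hs hst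
      (by unfold KX at hB'; linarith) x
    obtain ⟨c, hc⟩ := hg n o
    exact ⟨c, by rw [ho, hc]⟩
  · intro q h1 h2 t ht
    have hq : q = 1 := by
      by_contra hq
      rcases Nat.even_or_odd' q with ⟨j, hj | hj⟩
      · exact h1 j hj
      · rcases j with _ | j
        · omega
        · exact h2 j (by omega)
    subst hq
    exact S.one _ t ht
  · intro t ht hB
    refine up (2 * 0) (by omega) t ht ?_
    have : T (2 * 0) = 0 := hT0
    rw [this]
    unfold KX at hB
    linarith
  · intro j s t hs ht hst h1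
    exact birth (2 * j) 2 le_rfl (by omega) s t hs ht hst h1
  · intro t ht hB
    refine up (2 * 0 + (2 + 1)) (by omega) t ht ?_
    have h4 := W.le 0 3
    rw [hT0] at h4
    have : T (2 * 0 + (2 + 1)) ≤ a * 3 := by
      have h5 : T (0 + 3) ≤ 0 + a * (3 : ℕ) := h4
      have h6 : T (2 * 0 + (2 + 1)) = T (0 + 3) := rfl
      rw [h6]
      push_cast at h5
      linarith
    unfold KX at hB
    linarith
  · intro j s t hs ht hst h1
    exact birth (2 * j + (2 + 1)) 2 le_rfl (by omega) s t hs ht hst h1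

/-- **Row X.** The contract `XOut2` from the walls and the stable classes; the constant depends
only on the constants of the walls. -/
theorem exists_xOut {M : Type} [MetricSpace M] [CompactSpace M] {ρ : ℝ} (hρ : 0 < ρ)
    (hs : LS.UniqSeg M ρ) {k : Type} [Field k] {a C : ℝ} (ha : 0 ≤ a) (hC : 0 < C)
    (hst : ∃ W : ℕ → ℝ, H550.Wall W a ∧ W 0 = 0 ∧ ∀ n, (XP k M n).Step (W n) C)
    (S : StabO (fun n => XP k M n)) :
    Nonempty (H828C.XOut2 M (2 * (KX a C + 3)) k) := by
  obtain ⟨W, hW, hW0, hst⟩ := hst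
  obtain ⟨P⟩ := exists_pm2 S hW hW0 hC hst
  have hK : 0 < KX a C := by unfold KX; linarith
  obtain ⟨I, hI⟩ := MR.stMoore M ρ hρ hs 1 one_pos
  exact ⟨(H799.xOut2 I (H799.fl2 P hK.le) hK hI).toC (by linarith)⟩

/-- One field, existence of the constant. -/
theorem xOut_of_step {M : Type} [MetricSpace M] [CompactSpace M] {ρ : ℝ} (hρ : 0 < ρ)
    (hs : LS.UniqSeg M ρ) {k : Type} [Field k] {a C : ℝ} (hC : 0 < C)
    (hst : ∃ W : ℕ → ℝ, H550.Wall W a ∧ W 0 = 0 ∧ ∀ n, (XP k M n).Step (W n) C)
    (S : StabO (fun n => XP k M n)) :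
    ∃ B' : ℝ, 0 < B' ∧ Nonempty (H828C.XOut2 M B' k) := by
  have ha : 0 ≤ a := by
    obtain ⟨W, hW, -⟩ := hst
    exact hW.a0
  refine ⟨2 * (KX a C + 3), ?_, exists_xOut hρ hs ha hC hst S⟩
  unfold KX
  linarith

end Vale.Agent.P216.H126T.X
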