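import Vale.Agent.P216.S376.Main
import Vale.Agent.P216.H971T.G3Q
import Vale.Agent.P216.D337.Mid1
import Vale.Agent.P216.D239.Glue
import Vale.Agent.P216.H994.EtaNeF
import Vale.Agent.P216.H456T.Round
import Vale.Agent.P216.H550T.BaseFinT
import Vale.Agent.P216.H550T.StepT
import Vale.Agent.P216.H126T.Base3
import Vale.Agent.P216.H126T.ThomAll
import Vale.Agent.P216.H126T.X
import Vale.Agent.P216.T539.Collapse

/-!
# P216-T: the frame of the theorem on simply connected 3-manifolds (no Poincare conjecture)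

* `t2Sys`: `S376.tGoal_of` for a closed `M` instead of a homotopy sphere: the inputs are `BaseK`,
  `XOut2`, `OmegaOut` and a Lipschitz map to the unit quaternions with (G1), (G2), (G3);
* `infinite_of_data`: infinitely many closed geodesics from the same inputs;
* `g1P`: (G1) for every field; `omegaN`: `OmegaOut` for `N`, every field;
* `threeGoal_of`: the theorem from `G23Goal` and `StabGoal`.
-/

set_option linter.all false

open Set Topology Bundle Manifold
open scoped ContDiff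
open Module (finrank)
open Vale.Agent.P216.H288 Vale.Agent.P216.H494 Vale.Agent.P216.L250

namespace Vale.Agent.P216.H126T.Three

open AS GM B64 B633 S4 DV706 H994 Q633 H828C H269 S376
open Vale.Agent.P216.H754B (XP)

/-- **[INST]** for a closed `M` with the cohomology inputs. -/
theorem t2Sys {M : Type} [MetricSpace M] [CompactSpace M] {ρ : ℝ} (hρ : 0 < ρ)
    (hU : LS.UniqSeg M ρ) (hLOC : GM.LOC M) (G : GeoList M) {d h : ℕ}
    (Kb : H934D.BaseK (ZMod 2) M d h) {B : ℝ} (hB : 0 < B) (X : H828C.XOut2 M B (ZMod 2))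
    {x₀ : M} {B' : ℝ} (O : OmegaOut M 2 x₀ B' (ZMod 2)) {f : C(M, S3)} {K' : ℝ} (hK' : 0 < K')
    (hf' : ∀ x y, dist (f x) (f y) ≤ K' * dist x y) (g1 : G1P (ZMod 2)) (g2 : G2P hK'.le hf' O)
    (g3 : H971T.G3Q hK'.le hf' x₀ (ZMod 2)) :
    ∃ (K : ℕ) (B0 B1 : ℝ), Nonempty (H994.T2Sys (ZMod 2) 2 (AS.Crit G.ℓ) K B0 B1) := by
  have hD := descentStmt (Hol.triv : Hol M) G hρ hU
  let S := S0 G hD
  let R := R0 G hD
  let W : S.Two := H467E.two0 G hD hρ hU
  have hsh : S.Sheet := H773.sheet_triv G hD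
  -- finiteness
  have hL : S.LevelBoundK (ZMod 2) := GM.levelBoundK (ZMod 2) (GM.f1 hρ hU) hLOC GM.tw Hol.triv G hD
  have h0 : S.BaseFinK (ZMod 2) := H550T.baseFinK_of_baseK G hD Kb
  have hf : RotS.FinAt S (ZMod 2) := H651.finAtK (ZMod 2) hL h0
  -- the isomorphism with the loop space
  let Φ := hiso G hD
  have hst : S.StableBarsK (ZMod 2) B := fun s t hs h h' n => Φ.stable X hB hs.le h (h.trans h') n
  obtain ⟨K, hK⟩ := GSys.bars_of_levelBoundK hL hB.le hst h0
  obtain ⟨a, ha⟩ := exists_regCof (exists_reg G hD)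
  obtain ⟨E⟩ := eGoal S R W
  let T := R.tsys2 W hsh (ZMod 2) ord2 hf
  have hlift : ∀ n, n % 2 = 0 → Function.Surjective (T.πi n) := by
    intro n hn
    rcases n with _ | n
    · exact T.surj_πi_zero ha
    · exact fun x => T.mem_range_πi ha fun t => ⟨t, le_rfl,
        d_ev_eq_zero_of hK' hf' G hD two0 R hB g1 g2 X (by omega) x t⟩
  refine ⟨K, B, B, t2sys_of T hB (K := K) ?_ Φ X ha⟩
  exact
    { lift := hlift
      topH := fun t ht htc => (hf t ht htc).2
      bars := fun t ht htc m T h hT => hK t ht htc T h hT m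
      reg := fun s t h hs hc i => S.res_bijective hs h hc (S.mono s t h) i
      rel := fun s t h => E.rel s t h
      loc := fun s t h h' => E.loc hsh hf s t h h'
      d2 := fun i s t h om g h1 h2 => H971T.d2_VQ G hD ord2.pos hK' hf' H828C.zmod_two hB X g1 g2 g3
        i s t h.le om g h1 h2 }

/-- **Infinitely many closed geodesics** from the cohomology inputs. -/
theorem infinite_of_data
    {E : Type} [NormedAddCommGroup E] [NormedSpace ℝ E] [FiniteDimensional ℝ E]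
    {M : Type} [MetricSpace M] [CompactSpace M] [ChartedSpace E M] [IsManifold 𝓘(ℝ, E) ∞ M]
    [RiemannianBundle (fun x : M => TangentSpace 𝓘(ℝ, E) x)]
    [IsContMDiffRiemannianBundle 𝓘(ℝ, E) ∞ E (fun x : M => TangentSpace 𝓘(ℝ, E) x)]
    [IsRiemannianManifold 𝓘(ℝ, E) M] [PreconnectedSpace M] {d h : ℕ}
    (Kb : H934D.BaseK (ZMod 2) M d h) {B : ℝ} (hB : 0 < B) (X : H828C.XOut2 M B (ZMod 2))
    {x₀ : M} {B' : ℝ} (O : OmegaOut M 2 x₀ B' (ZMod 2)) {f : C(M, S3)} {K' : ℝ} (hK' : 0 < K')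
    (hf' : ∀ x y, dist (f x) (f y) ≤ K' * dist x y) (g1 : G1P (ZMod 2)) (g2 : G2P hK'.le hf' O)
    (g3 : H971T.G3Q hK'.le hf' x₀ (ZMod 2)) :
    (primeClosedGeodesicImages M).Infinite := by
  intro hfin
  obtain ⟨ρ, hρ, hs, _⟩ := Geo.exists_uniqSeg E M
  obtain ⟨G⟩ := exists_geoList (nonBranching_of_riemannian (E := E) (M := M)) hfin
  have hLOC : GM.LOC M := H319.loc (E := E) hρ hs (H844.f4_M E M)
  obtain ⟨K, B0, B1, ⟨T⟩⟩ := t2Sys hρ hs hLOC G Kb hB X O hK' hf' g1 g2 g3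
  have := G.fin
  exact H994.t2Goal G.ℓ G.ℓ_pos (ZMod 2) 2 le_rfl K B0 B1 T

/-- **(G1)**, every field. -/
theorem g1P (k : Type) [Field k] : G1P k := by
  obtain ⟨x₀⟩ : Nonempty (H456T.Rnd (EuclideanSpace ℝ (Fin 4))) := by
    have : Nonempty (Sph 3) := (NormedSpace.sphere_nonempty.2 zero_le_one).to_subtype
    obtain ⟨y⟩ := this
    exact ⟨H456T.toSph.symm y⟩
  obtain ⟨B, hB, hO⟩ := H799.omega3 (H456T.Rnd (EuclideanSpace ℝ (Fin 4))) Real.pi_pos
    H456T.uniqSeg ⟨H456T.toSph⟩ x₀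
  obtain ⟨O⟩ := hO k
  obtain ⟨f, K, hK, hf, g1, -⟩ := exists_gom Real.pi_pos H456T.uniqSeg H456T.toSph x₀ hB.le O
  exact g1

section

variable {E : Type} [NormedAddCommGroup E] [NormedSpace ℝ E] [FiniteDimensional ℝ E]
  {N : Type} [MetricSpace N] [CompactSpace N] [ChartedSpace E N] [SimplyConnectedSpace N] {ρ : ℝ}

/-- **OMEGA for `N`**, every field. -/
theorem omegaN (hρ : 0 < ρ) (hU : LS.UniqSeg N ρ) (h3 : finrank ℝ E = 3) :
    ∃ (x₀ : N) (B : ℝ), 0 < B ∧ ∀ (k : Type) [Field k], Nonempty (OmegaOut N 2 x₀ B k) := by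
  have hM : Nontrivial N := by
    obtain ⟨K⟩ := baseK3 (E := E) (N := N) hρ hU h3 (ZMod 2)
    exact D239.nontrivial_of_baseK (by norm_num) le_rfl K
  have hT : H977C.ThomK (fun _ _ => True) N 3 := by
    have := thomK_all (E := E) (N := N) (by omega)
    rwa [h3] at this
  obtain ⟨x₀, B, hB, H⟩ := D337.omegaOne_of (Kf := fun _ _ => True) hρ hU (n := 3) (by norm_num) hT
    (H994.etaNeK_of_base (h := 1) hρ hU (by norm_num) le_rfl fun k _ _ =>
      baseK3 (E := E) hρ hU h3 k)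
  exact ⟨x₀, B, hB, fun k _ => H k trivial⟩

end

end Vale.Agent.P216.H126T.Three
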