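import Vale.Agent.P216.H126T.Three
import Vale.Agent.P216.H126T.Even
import Vale.Agent.P216.H337T.T1
import Vale.Agent.P216.D246.BoxBase

/-!
# P216-T: the theorem on simply connected 3-manifolds, from the last three blocks

* `G23Goal`: (G2) and (G3) for the Lipschitz map of degree one to the unit quaternions;
* `LineGoal`: the stable classes of the free loops of `N` are lines, and vanish in degree one;
* `OverGoal`: over the complement of an open box the stable classes come from global ones;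
* `infinite_three_of`: the theorem.
-/

set_option linter.all false

open Set Topology Bundle Manifold BoundedContinuousFunction
open scoped ContDiff
open Module (finrank)
open Vale.Agent.P216.H288 Vale.Agent.P216.H494

namespace Vale.Agent.P216.H126T.Three

open Vale.Agent.P216.AS Vale.Agent.P216.B64 Vale.Agent.P216.PS Vale.Agent.P216.Sl
open Vale.Agent.P216.Q633 Vale.Agent.P216.H269 Vale.Agent.P216.H971T
open Vale.Agent.P216.H754B (XP mono_FL)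
open Vale.Agent.P216.H901
open Vale.Agent.P216.H83 (ovr_sub)
open Vale.Agent.P216.MV337 (FL FL_mono evz)
open Vale.Agent.P216.E2L (BaseH)

/-- **(G2), (G3)** for a Lipschitz map of degree one (mod 2). -/
def G23Goal : Prop :=
  ∀ {E : Type} [NormedAddCommGroup E] [NormedSpace ℝ E] [FiniteDimensional ℝ E]
    {N : Type} [MetricSpace N] [CompactSpace N] [ChartedSpace E N] [SimplyConnectedSpace N],
    finrank ℝ E = 3 → ∀ {ρ : ℝ}, 0 < ρ → LS.UniqSeg N ρ → ∀ {x₀ : N} {B : ℝ}, 0 < B →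
    ∀ (O : OmegaOut N 2 x₀ B (ZMod 2)) (f : C(N, S3)) {K : ℝ} (hK : 0 < K)
      (hf : ∀ x y, dist (f x) (f y) ≤ K * dist x y), f x₀ = 1 →
      (∀ w : List S3 → ZMod 2, CocL (univ : Set S3) 3 w → ¬ ExL (univ : Set S3) 3 w →
        ¬ ExL (univ : Set N) 3 (fun l => w (l.map f))) →
      G2P hK.le hf O ∧ G3Q hK.le hf x₀ (ZMod 2)

/-- **(L2)** -/
def LineGoal : Prop :=
  ∀ {E : Type} [NormedAddCommGroup E] [NormedSpace ℝ E] [FiniteDimensional ℝ E]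
    {N : Type} [MetricSpace N] [CompactSpace N] [ChartedSpace E N] [IsManifold 𝓘(ℝ, E) ∞ N]
    [SimplyConnectedSpace N],
    finrank ℝ E = 3 → ∀ {ρ : ℝ}, 0 < ρ → LS.UniqSeg N ρ → ∀ {x₀ : N} {B : ℝ}, 0 < B →
    ∀ (O : OmegaOut N 2 x₀ B (ZMod 2)),
      (∀ n (o o' : (XP (ZMod 2) N n).Fam), ∃ a b : ZMod 2, (a ≠ 0 ∨ b ≠ 0) ∧
        ∀ t (ht : 0 < t), a • o.z t ht + b • o'.z t ht = 0) ∧
      ∀ (o : (XP (ZMod 2) N 1).Fam) t (ht : 0 < t), o.z t ht = 0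

/-- **(L3)** -/
def OverGoal : Prop :=
  ∀ {N : Type} [MetricSpace N] [CompactSpace N] {ρ : ℝ}, 0 < ρ → LS.UniqSeg N ρ →
    ∀ {x₀ : N} {B : ℝ}, 0 < B → ∀ (O : OmegaOut N 2 x₀ B (ZMod 2)) (A : Set N), IsClosed A →
    x₀ ∈ A → BaseH (ZMod 2) A (fun p => p = 0) → ∀ (q : ℕ) (g : (XP (ZMod 2) N q).Fam) (t₁ : ℝ),
    (∀ t (ht : 0 < t), t₁ ≤ t → Even.rP (ZMod 2) x₀ ht q (g.z t ht) ≠ 0) →
    ∀ t (ht : 0 < t), t₁ ≤ t → ∃ T', ∃ h : t ≤ T',
      ∀ u : Ha (tr (ℝ →ᵇ N)) (on (ZMod 2)) (ovr evz (fun t => FL N t) A T') q, ∃ a : ZMod 2,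
        res (mono_ovr mono_FL A t T' ht h) q u =
          a • res (ovr_sub evz (fun t => FL N t) A t) q (g.z t ht)

section

variable {E : Type} [NormedAddCommGroup E] [NormedSpace ℝ E] [FiniteDimensional ℝ E]
  {N : Type} [MetricSpace N] [CompactSpace N] [ChartedSpace E N] [SimplyConnectedSpace N]

/-- A box around a point near `x₀` whose complement contains `x₀`. -/
theorem exists_box (h3 : finrank ℝ E = 3) (x₀ : N) : ∃ (c : Ch2.D246.Cub N 3) (v : Fin 3 → ℝ),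
    ‖v‖ + 1 ≤ 2 ∧ x₀ ∈ c.A1 v 1 := by
  have loc : Ch2.D246.LocEuc N 3 := h3 ▸ Ch2.D907.cub E N
  obtain ⟨c, hc, hc0⟩ := loc x₀
  refine ⟨c, fun _ => 1, ?_, fun _ => ?_⟩
  · have : ‖(fun _ => 1 : Fin 3 → ℝ)‖ ≤ 1 := (pi_norm_le_iff_of_nonneg zero_le_one).2 fun i => by
      simp
    linarith
  · rw [hc0, zero_sub, norm_neg]
    have := norm_le_pi_norm (fun _ => 1 : Fin 3 → ℝ) 0
    simpa using this

/-- **The odd classes.** -/
theorem ne_odd {ρ : ℝ} (hρ : 0 < ρ) (hU : LS.UniqSeg N ρ) (h3 : finrank ℝ E = 3) {x₀ : N} {B : ℝ}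
    (hB : 0 < B) (O : OmegaOut N 2 x₀ B (ZMod 2)) (hO : OverGoal) {j : ℕ}
    (g : (XP (ZMod 2) N (2 * j + 2)).Fam) (t₁ : ℝ)
    (hg : ∀ t (ht : 0 < t), t₁ ≤ t → Even.rP (ZMod 2) x₀ ht (2 * j + 2) (g.z t ht) ≠ 0) :
    ∃ o : (XP (ZMod 2) N (2 * j + 3)).Fam, ∃ (t : ℝ) (ht : 0 < t), o.z t ht ≠ 0 := by
  obtain ⟨Kb⟩ := baseK3 (E := E) hρ hU h3 (ZMod 2)
  obtain ⟨c, v, hv, hx⟩ := exists_box (E := E) h3 x₀
  have γ : Path (c.ψ v) x₀ := (PathConnectedSpace.joined _ _).somePath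
  obtain ⟨c', T, -, hDm⟩ := H337T.exists_htriv (H337T.HCap.ofCub c one_pos hv γ) hρ hU
  have hDm' : T.Dm = c.A1 v 1 := hDm
  have hbase : BaseH (ZMod 2) (c.A1 v 1) (fun p => p = 0) :=
    BoxBase.baseH_comp (E := E) h3 (by norm_num) Kb c v 1 one_pos hv
  refine H337T.ne_odd' T hB.le O g t₁ ?_
  exact hO hρ hU hB O T.Dm T.closed_m (by rw [hDm']; exact hx) (by rw [hDm']; exact hbase)
    (2 * j + 2) g t₁ hg

end

/-- **Simply connected closed 3-manifolds**, from the last three blocks. -/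
theorem infinite_three_of (hG : G23Goal) (hL : LineGoal) (hO : OverGoal)
    {E : Type} [NormedAddCommGroup E] [NormedSpace ℝ E] [FiniteDimensional ℝ E]
    {N : Type} [MetricSpace N] [CompactSpace N] [ChartedSpace E N] [IsManifold 𝓘(ℝ, E) ∞ N]
    [RiemannianBundle (fun x : N => TangentSpace 𝓘(ℝ, E) x)]
    [IsContMDiffRiemannianBundle 𝓘(ℝ, E) ∞ E (fun x : N => TangentSpace 𝓘(ℝ, E) x)]
    [IsRiemannianManifold 𝓘(ℝ, E) N] [SimplyConnectedSpace N] (h3 : finrank ℝ E = 3) :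
    (primeClosedGeodesicImages N).Infinite := by
  obtain ⟨ρ, hρ, hU, _⟩ := Geo.exists_uniqSeg E N
  obtain ⟨Kb⟩ := baseK3 (E := E) hρ hU h3 (ZMod 2)
  obtain ⟨x₀, B, hB, hOm⟩ := omegaN (E := E) hρ hU h3
  obtain ⟨O⟩ := hOm (ZMod 2)
  obtain ⟨f, K, hK, hf, hf0, hne⟩ := T539.exists_collapse (E := E) h3 x₀
  obtain ⟨g2, g3⟩ := hG (E := E) h3 hρ hU hB O f hK hf hf0 (hne (ZMod 2))
  obtain ⟨C, hC, hst⟩ := H550T.exists_stepFL1_mfd E hρ hU x₀ hB
  have hst' := hst (ZMod 2) 2 two_pos O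
  obtain ⟨h1, h2⟩ := hL (E := E) h3 hρ hU hB O
  have hS : X.StabO (fun n => XP (ZMod 2) N n) := by
    refine ⟨h1, h2, fun n hn => ?_⟩
    rcases Nat.even_or_odd' n with ⟨j, rfl | rfl⟩
    · exact Even.ne_even hB.le O hK.le hf g2 hC hst' j
    · obtain ⟨i, rfl⟩ : ∃ i, j = i + 1 := ⟨j - 1, by omega⟩
      obtain ⟨g, t₀, ht₀, hg⟩ := Even.exists_even hB.le O hK.le hf g2 hC hst' (i + 1) (2 * i + 2)
        (by ring)
      exact ne_odd (E := E) hρ hU h3 hB O hO g t₀ hg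
  obtain ⟨B', hB', ⟨X'⟩⟩ := X.xOut_of_step hρ hU hC hst' hS
  exact infinite_of_data (E := E) Kb hB' X' O hK hf (g1P (ZMod 2)) g2 g3

end Vale.Agent.P216.H126T.Three
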