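import Vale.Agent.P216.H126T.Three2
import Vale.Agent.P216.H313T.L2
import Vale.Agent.P216.H456T.Ler
import Vale.Agent.P216.D246.L3C

/-!
# P216-T: the theorem on simply connected 3-manifolds from (G2), (G3)

The Leray blocks are discharged; `xOutN`: the contract `XOut2` for `N`; `infinite_three_G`: the
theorem from `G23Goal`.
-/

set_option linter.all false

open Set Topology Bundle Manifold BoundedContinuousFunction
open scoped ContDiff
open Module (finrank)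
open Vale.Agent.P216.H288 Vale.Agent.P216.H494

namespace Vale.Agent.P216.H126T.Three

open Vale.Agent.P216.AS Vale.Agent.P216.B64 Vale.Agent.P216.PS Vale.Agent.P216.Sl
open Vale.Agent.P216.Q633 Vale.Agent.P216.H269 Vale.Agent.P216.H971T
open Vale.Agent.P216.H754B (XP mono_FL)
open Vale.Agent.P216.H901
open Vale.Agent.P216.MV337 (FL FL_mono evz)
open Vale.Agent.P216.E2L (BaseH)

section

variable {E : Type} [NormedAddCommGroup E] [NormedSpace ℝ E] [FiniteDimensional ℝ E]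
  {N : Type} [MetricSpace N] [CompactSpace N] [ChartedSpace E N] [SimplyConnectedSpace N]
  {k : Type} [Field k] {x₀ : N} {B : ℝ} {ρ : ℝ}

/-- **The odd classes**, every field. -/
theorem ne_oddK (hρ : 0 < ρ) (hU : LS.UniqSeg N ρ) (h3 : finrank ℝ E = 3)
    (hB : 0 < B) (O : OmegaOut N 2 x₀ B k) {j : ℕ}
    (g : (XP k N (2 * j + 2)).Fam) {t₁ : ℝ} (ht₁ : 0 < t₁)
    (hg : Even.rP k x₀ ht₁ (2 * j + 2) (g.z t₁ ht₁) ≠ 0) :
    ∃ o : (XP k N (2 * j + 3)).Fam, ∃ (t : ℝ) (ht : 0 < t), o.z t ht ≠ 0 := by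
  obtain ⟨Kb⟩ := baseK3 (E := E) hρ hU h3 k
  obtain ⟨c, v, hv, hx⟩ := exists_box (E := E) h3 x₀
  have γ : Path (c.ψ v) x₀ := (PathConnectedSpace.joined _ _).somePath
  obtain ⟨c', T, -, hDm⟩ := H337T.exists_htriv (H337T.HCap.ofCub c one_pos hv γ) hρ hU
  have hDm' : T.Dm = c.A1 v 1 := hDm
  have hbase : BaseH k T.Dm (fun p => p = 0) := by
    rw [hDm']
    exact BoxBase.baseH_comp (E := E) h3 (by norm_num) Kb c v 1 one_pos hv
  have hx' : x₀ ∈ T.Dm := by rw [hDm']; exact hx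
  exact L3C.ne_odd_of T hB.le O hx' g ht₁ hg (H456T.line_over hρ hU O hB.le hx' hbase (2 * j + 2))

/-- **The stable classes of the free loops of `N`**, every field. -/
theorem stabN (hρ : 0 < ρ) (hU : LS.UniqSeg N ρ) (h3 : finrank ℝ E = 3) (hB : 0 < B)
    (O : OmegaOut N 2 x₀ B k) {f : C(N, S3)} {K : ℝ} (hK : 0 ≤ K)
    (hf : ∀ x y, dist (f x) (f y) ≤ K * dist x y) (G2 : G2P hK hf O) {a C : ℝ} (hC : 0 < C)
    (hst : ∃ W : ℕ → ℝ, H550.Wall W a ∧ W 0 = 0 ∧ ∀ n, (XP k N n).Step (W n) C) :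
    X.StabO (fun n => XP k N n) := by
  obtain ⟨Kb⟩ := baseK3 (E := E) hρ hU h3 k
  refine H313T.stabO_three hρ hU O hB.le Kb fun n hn => ?_
  rcases Nat.even_or_odd' n with ⟨j, rfl | rfl⟩
  · exact Even.ne_even hB.le O hK hf G2 hC hst j
  · obtain ⟨i, rfl⟩ : ∃ i, j = i + 1 := ⟨j - 1, by omega⟩
    obtain ⟨g, t₀, ht₀, hg⟩ := Even.exists_even hB.le O hK hf G2 hC hst (i + 1) (2 * i + 2)
      (by ring)
    exact ne_oddK (E := E) hρ hU h3 hB O g ht₀ (hg t₀ ht₀ le_rfl)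

/-- **The contract `XOut2` for `N`.** -/
theorem xOutN [IsManifold 𝓘(ℝ, E) ∞ N] (hρ : 0 < ρ) (hU : LS.UniqSeg N ρ) (h3 : finrank ℝ E = 3)
    (hB : 0 < B) (O : OmegaOut N 2 x₀ B k) {f : C(N, S3)} {K : ℝ} (hK : 0 ≤ K)
    (hf : ∀ x y, dist (f x) (f y) ≤ K * dist x y) (G2 : G2P hK hf O) :
    ∃ B' : ℝ, 0 < B' ∧ Nonempty (H828C.XOut2 N B' k) := by
  obtain ⟨C, hC, hst⟩ := H550T.exists_stepFL1_mfd E hρ hU x₀ hB
  have hst' := hst k 2 two_pos O
  exact X.xOut_of_step hρ hU hC hst' (stabN (E := E) hρ hU h3 hB O hK hf G2 hC hst')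

end

/-- **Simply connected closed 3-manifolds**, from (G2), (G3). -/
theorem infinite_three_G (hG : G23Goal)
    {E : Type} [NormedAddCommGroup E] [NormedSpace ℝ E] [FiniteDimensional ℝ E]
    {N : Type} [MetricSpace N] [CompactSpace N] [ChartedSpace E N] [IsManifold 𝓘(ℝ, E) ∞ N]
    [RiemannianBundle (fun x : N => TangentSpace 𝓘(ℝ, E) x)]
    [IsContMDiffRiemannianBundle 𝓘(ℝ, E) ∞ E (fun x : N => TangentSpace 𝓘(ℝ, E) x)]
    [IsRiemannianManifold 𝓘(ℝ, E) N] [SimplyConnectedSpace N] (h3 : finrank ℝ E = 3) :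
    (primeClosedGeodesicImages N).Infinite := by
  obtain ⟨ρ, hρ, hU, _⟩ := Geo.exists_uniqSeg E N
  obtain ⟨Kb⟩ := baseK3 (E := E) hρ hU h3 (ZMod 2)
  obtain ⟨x₀, B, hB, hOm⟩ := omegaN (E := E) hρ hU h3
  obtain ⟨O⟩ := hOm (ZMod 2)
  obtain ⟨f, K, hK, hf, hf0, hne⟩ := T539.exists_collapse (E := E) h3 x₀
  obtain ⟨g2, g3⟩ := hG (E := E) h3 hρ hU hB O f hK hf hf0 (hne (ZMod 2))
  obtain ⟨B', hB', ⟨X'⟩⟩ := xOutN (E := E) hρ hU h3 hB O hK.le hf g2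
  exact infinite_of_data (E := E) Kb hB' X' O hK hf (g1P (ZMod 2)) g2 g3

end Vale.Agent.P216.H126T.Three
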